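import Vale.Agent.P054.T2.H94.Side
import Vale.Agent.P054.T2.H930.GlueB1
import Vale.Agent.P054.T2.H930.GermMap

set_option autoImplicit false
set_option linter.all false

/-!
# P054 / T2, seam B -> C: the two sides from the data of `Z⁺` (930's `ZData`) and leaf systems
-/

namespace Vale.Agent.P054.T2.H94

open MvPolynomial Finset Module
open Vale.Agent.P054.T2.SecC
open Vale.Agent.P054.T2.H686 (mu meet Qf Crd leaf pull totalDegree_linear_le eval_pull)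
open Vale.Agent.P054.T2.H580 (Vw mem_Vw Vw_mono C_mem_Vw X_mem_Vw mul_mem_Vw)
open Vale.Agent.P054.T2.H930 (germ mx grad chain_rule J mem_germ f_mem_germ germ_le_comap
  germ_le_comap_rename germ_mono incP eval_incP hatPt ptc ZData totalDegree_map_le_of_Vw edgePt
  edgePt_comp_j2 germ_isPrime)

variable {n : ℕ}

/-! ### incidence polynomials on the hat leaf -/

theorem pull_X_inl (s : ZZ n) (i : Fin n) : pull s (X (Sum.inl i)) = X i := by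
  unfold pull
  rw [aeval_X]

theorem pull_X_mid (s : ZZ n) (i : Fin n) :
    pull s (X (Sum.inr (Sum.inl i))) = C (s.1 i.succ) - C (s.1 0) * X i := by
  unfold pull
  rw [aeval_X]

theorem pull_X_last (s : ZZ n) (x : Unit) :
    pull s (X (Sum.inr (Sum.inr x))) = - C (s.2 0) - ∑ i : Fin n, C (s.2 i.succ) * X i := by
  unfold pull
  rw [aeval_X]

theorem pullh_incP_inl (s : ZZ n) (i : Fin n) :
    pullh s (incP ℝ n (Sum.inl i)) = - incL s i := by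
  simp only [incP, map_add, map_sub, map_mul, pullh_inl, pullh_inr, pull_X_inl, pull_X_mid,
    rename_X, rename_C, incL]
  ring

theorem pullh_incP_inr (s : ZZ n) (x : Unit) :
    pullh s (incP ℝ n (Sum.inr x)) = (X (Sum.inr (Sum.inr 0)) - C (s.2 0)) +
      ∑ i : Fin n, X (Sum.inl i) * (X (Sum.inr (Sum.inr i.succ)) - C (s.2 i.succ)) := by
  simp only [incP, map_add, map_sub, map_mul, map_neg, map_sum, pullh_inl, pullh_inr, pull_X_inl,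
    pull_X_last, rename_X, rename_C, mul_sub, Finset.sum_sub_distrib]
  have h1 : ∑ i : Fin n, (X (Sum.inl i) * X (Sum.inr (Sum.inr i.succ)) : MvPolynomial (HL n) ℝ) =
      ∑ i : Fin n, X (Sum.inr (Sum.inr i.succ)) * X (Sum.inl i) :=
    Finset.sum_congr rfl fun i _ => mul_comm _ _
  have h2 : ∑ i : Fin n, (X (Sum.inl i) * C (s.2 i.succ) : MvPolynomial (HL n) ℝ) =
      ∑ i : Fin n, C (s.2 i.succ) * X (Sum.inl i) :=
    Finset.sum_congr rfl fun i _ => mul_comm _ _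
  rw [h1, h2]
  ring

theorem incQ_eq (s : ZZ n) (x : Unit) :
    incQ s = (X (Sum.inr (Sum.inl 0)) - C (s.1 0)) * pullh s (incP ℝ n (Sum.inr x)) +
      ∑ i : Fin n, incL s i * (X (Sum.inr (Sum.inr i.succ)) - C (s.2 i.succ)) := by
  rw [pullh_incP_inr, incQ, Fin.sum_univ_succ, mul_add, Finset.mul_sum, add_assoc,
    ← Finset.sum_add_distrib]
  congr 1
  refine Finset.sum_congr rfl fun i _ => ?_
  rw [incL]
  ring

theorem inc_of_incP {s : ZZ n} {I : Ideal (MvPolynomial (HL n) ℝ)}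
    (h : ∀ i, pullh s (incP ℝ n i) ∈ I) : (∀ i, incL s i ∈ I) ∧ incQ s ∈ I := by
  have h1 : ∀ i, incL s i ∈ I := by
    intro i
    have h2 := h (Sum.inl i)
    rw [pullh_incP_inl] at h2
    exact neg_mem_iff.1 h2
  refine ⟨h1, ?_⟩
  rw [incQ_eq s ()]
  exact I.add_mem (I.mul_mem_left _ (h _)) (I.sum_mem fun i _ => I.mul_mem_right _ (h1 i))

/-! ### germ inclusions -/

/-- the leaf germ inside the hat-leaf germ -/
theorem rename_germ_le {σ v : ℕ} (f : ZZ n → Fin (n - σ) → MvPolynomial (Fin n) ℝ)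
    (h : ZZ n → Fin (2 * (n + 1) - v) → MvPolynomial (Crd n ⊕ ZI n) ℝ) (s r : ZZ n) :
    germ (mu s r) (f s) ≤ (germ (hx s r) (sys f h s)).comap (rename Sum.inl) := by
  have h1 : (hx s r) ∘ (Sum.inl : Fin n → HL n) = mu s r := rfl
  rw [← h1]
  refine germ_le_comap_rename Sum.inl (hx s r) fun i => ?_
  have h2 : rename Sum.inl (f s i) = sys f h s (Fin.castAdd _ i) := by
    rw [sys, Fin.append_left]
  rw [h2]
  exact f_mem_germ _ _ _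

/-- the hat germ at `(g, r)` restricted to the leaf of `s` -/
theorem pullh_germ_le {σ v c : ℕ} (fF : Fin c → MvPolynomial (Crd n) ℝ)
    (f : ZZ n → Fin (n - σ) → MvPolynomial (Fin n) ℝ)
    (h : ZZ n → Fin (2 * (n + 1) - v) → MvPolynomial (Crd n ⊕ ZI n) ℝ) (s r : ZZ n)
    (hF : ∀ i, pull s (fF i) ∈ germ (mu s r) (f s)) :
    germ (hatr s r) (Fin.append (fun i => rename Sum.inl (fF i)) (h s)) ≤
      (germ (hx s r) (sys f h s)).comap (pullh s) := by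
  refine germ_le_comap (pullh s) (eval_hx_pullh s r) fun i => ?_
  refine Fin.addCases (fun i => ?_) (fun j => ?_) i
  · rw [Fin.append_left, pullh_rename]
    exact rename_germ_le f h s r (hF i)
  · rw [Fin.append_right]
    have h2 : pullh s (h s j) = sys f h s (Fin.natAdd _ j) := by
      rw [sys, Fin.append_right]
    rw [h2]
    exact f_mem_germ _ _ _

/-! ### leaf data -/

/-- leaf systems for the first end points of the edges in `B`: `f s` on the leaf of `s`.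
`B ⊆ A`: GOOD at the edges of `B` relatively to the edges of `A`. -/
structure LeafData (A B : Finset (ZZ n × ZZ n)) (W N σ : ℕ) where
  f : ZZ n → Fin (n - σ) → MvPolynomial (Fin n) ℝ
  deg : ∀ s i, (f s i).totalDegree ≤ W
  zero : ∀ e ∈ B, ∀ i, eval (mu e.1 e.2) (f e.1 i) = 0
  ind : ∀ e ∈ B, LinearIndependent ℝ (fun i => grad (mu e.1 e.2) (f e.1 i))
  good : ∀ e ∈ B, ∀ G : MvPolynomial (Fin n) ℝ, G.totalDegree ≤ N →
    (∀ e' ∈ A, e'.1 = e.1 → eval (mu e'.1 e'.2) G = 0) → G ∈ germ (mu e.1 e.2) (f e.1)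

theorem totalDegree_pull_le (s : ZZ n) (w : Crd n ⊕ ZI n → ℕ) (hw : ∀ x, 1 ≤ w (Sum.inl x)) {N : ℕ}
    {G : MvPolynomial (Crd n) ℝ} (hG : rename Sum.inl G ∈ Vw ℝ w N) :
    (pull s G).totalDegree ≤ N := by
  have h1 := H930.totalDegree_pull1_le s w hw hG
  have h2 : H930.pull1 s (rename Sum.inl G) = pull s G := by
    have h3 : (H930.pull1 s).comp (rename Sum.inl) = pull s := by
      apply algHom_ext
      intro x
      rw [AlgHom.comp_apply, rename_X]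
      unfold H930.pull1
      rw [aeval_X, Sum.elim_inl]
    exact congrArg (fun φ : MvPolynomial (Crd n) ℝ →ₐ[ℝ] MvPolynomial (Fin n) ℝ => φ G) h3
  rwa [h2] at h1

/-- common `X`-equations lie in the leaf germs -/
theorem LeafData.pull_mem {A B : Finset (ZZ n × ZZ n)} {W N σ : ℕ} (L : LeafData A B W N σ)
    {e : ZZ n × ZZ n} (he : e ∈ B) (w : Crd n ⊕ ZI n → ℕ) (hw : ∀ x, 1 ≤ w (Sum.inl x))
    {G : MvPolynomial (Crd n) ℝ} (hG : rename Sum.inl G ∈ Vw ℝ w N)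
    (h0 : ∀ e' ∈ A, eval (meet e'.1 e'.2) G = 0) :
    pull e.1 G ∈ germ (mu e.1 e.2) (L.f e.1) := by
  refine L.good e he _ (totalDegree_pull_le e.1 w hw hG) fun e' he' h1 => ?_
  have h2 := h0 e' he'
  rw [← h1, eval_pull]
  exact h2

/-! ### the two sides of `ZData` -/

section Z

variable {E0 E1 E2 A : Finset (ZZ n × ZZ n)} {W D N c₀ c₁ c₂ σ₁ σ₂ v₁ v₂ : ℕ}

/-- the vertical system of the hat variety `(g, r)`, indexed for `Side` -/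
noncomputable def sysR (Z : ZData ℝ n E0 E1 E2 (wh W) N c₀ c₁ c₂ σ₁ σ₂)
    (hc : c₂ = 2 * (n + 1) - v₂) :
    Fin (2 * (n + 1) - v₂) → MvPolynomial (Crd n ⊕ ZI n) ℝ := fun j => Z.h' (Fin.cast hc.symm j)

/-- the vertical system of the hat variety `(g, s)`, indexed for `Side` -/
noncomputable def sysS (Z : ZData ℝ n E0 E1 E2 (wh W) N c₀ c₁ c₂ σ₁ σ₂)
    (hc : c₁ = 2 * (n + 1) - v₁) :
    Fin (2 * (n + 1) - v₁) → MvPolynomial (Crd n ⊕ ZI n) ℝ := fun j => Z.h (Fin.cast hc.symm j)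

theorem hatPt_eq_hatr {s r : ZZ n} (h0 : s.1 0 ≠ r.1 0) (hq : Qf (s - r) = 0) :
    hatPt r (mu r s) = hatr s r := by
  rw [← edgePt_comp_j2 h0 hq]
  funext x
  rcases x with x | x <;> rfl

theorem germ_sysR (Z : ZData ℝ n E0 E1 E2 (wh W) N c₀ c₁ c₂ σ₁ σ₂) (hc : c₂ = 2 * (n + 1) - v₂)
    (p : Crd n ⊕ ZI n → ℝ) :
    germ p (Fin.append (fun i => rename Sum.inl (Z.f i)) (sysR Z hc)) =
      germ p (Fin.append (fun i => rename Sum.inl (Z.f i)) Z.h') := by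
  subst hc
  rfl

theorem germ_sysS (Z : ZData ℝ n E0 E1 E2 (wh W) N c₀ c₁ c₂ σ₁ σ₂) (hc : c₁ = 2 * (n + 1) - v₁)
    (p : Crd n ⊕ ZI n → ℝ) :
    germ p (Fin.append (fun i => rename Sum.inl (Z.f i)) (sysS Z hc)) =
      germ p (Fin.append (fun i => rename Sum.inl (Z.f i)) Z.h) := by
  subst hc
  rfl

theorem Qf_sub_comm {s r : ZZ n} (h : Qf (s - r) = 0) : Qf (r - s) = 0 := by
  rw [← neg_sub, Qf_neg']; exact h

/-- `ZData` for a smaller set of good edges -/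
def restrictZ {wt : Crd n ⊕ ZI n → ℕ} {B : Finset (ZZ n × ZZ n)}
    (Z : ZData ℝ n E0 E1 E2 wt N c₀ c₁ c₂ σ₁ σ₂) (hB : B ⊆ E2) :
    ZData ℝ n E0 E1 B wt N c₀ c₁ c₂ σ₁ σ₂ where
  adj := Z.adj
  sub := Z.sub
  sub' := hB.trans Z.sub'
  wt_pos := Z.wt_pos
  wt_le := Z.wt_le
  leaf₁ := Z.leaf₁
  leaf₂ := Z.leaf₂
  f := Z.f
  h := Z.h
  h' := Z.h'
  f_mem := Z.f_mem
  h_mem := Z.h_mem
  h'_mem := Z.h'_mem
  f_zero := Z.f_zero
  h_zero := Z.h_zero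
  h'_zero := Z.h'_zero
  f_ind e he := Z.f_ind e (hB he)
  h_ind e he := Z.h_ind e (hB he)
  h'_ind e he := Z.h'_ind e (hB he)
  good₁ e he := Z.good₁ e (hB he)
  good₂ e he := Z.good₂ e (hB he)
  tight := Z.tight
  le₁ := Z.le₁
  le₂ := Z.le₂

theorem restrictZ_F {wt : Crd n ⊕ ZI n → ℕ} {B : Finset (ZZ n × ZZ n)}
    (Z : ZData ℝ n E0 E1 E2 wt N c₀ c₁ c₂ σ₁ σ₂) (hB : B ⊆ E2) : (restrictZ Z hB).F = Z.F := rfl

theorem adjZ (Z : ZData ℝ n E0 E1 E2 (wh W) N c₀ c₁ c₂ σ₁ σ₂) {e : ZZ n × ZZ n} (he : e ∈ E2) :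
    e.1.1 0 ≠ e.2.1 0 ∧ Qf (e.1 - e.2) = 0 := Z.adj e (Z.mem0 he)

/-- **the common `X`-equations lie in the leaf germs (leaf of `s`)** -/
theorem pull_f_mem₁ (Z : ZData ℝ n E0 E1 E2 (wh W) N c₀ c₁ c₂ σ₁ σ₂) (L : LeafData E0 E2 W N σ₁)
    {e : ZZ n × ZZ n} (he : e ∈ E2) (i : Fin c₀) :
    pull e.1 (Z.f i) ∈ germ (mu e.1 e.2) (L.f e.1) :=
  L.pull_mem he (wh W) Z.wt_pos (Z.f_mem i) fun e' he' => Z.f_zero i e' he'

/-- **the common `X`-equations lie in the leaf germs (leaf of `r`)** -/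
theorem pull_f_mem₂ (Z : ZData ℝ n E0 E1 E2 (wh W) N c₀ c₁ c₂ σ₁ σ₂)
    (L : LeafData (swp E0) (swp E2) W N σ₂)
    {e : ZZ n × ZZ n} (he : e ∈ swp E2) (i : Fin c₀) :
    pull e.1 (Z.f i) ∈ germ (mu e.1 e.2) (L.f e.1) := by
  refine L.pull_mem he (wh W) Z.wt_pos (Z.f_mem i) fun e' he' => ?_
  have h1 := mem_swp.1 he'
  have h2 := Z.adj _ h1
  have h3 := Z.f_zero i _ h1
  simp only [Prod.fst_swap, Prod.snd_swap] at h2 h3
  rwa [H686.meet_comm h2.1 h2.2] at h3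

/-- **hat germ `(g, r)` ⟹ hat-leaf germ of `s`** -/
theorem pullh_mem₁ (Z : ZData ℝ n E0 E1 E2 (wh W) N c₀ c₁ c₂ σ₁ σ₂) (hc : c₂ = 2 * (n + 1) - v₂)
    (L : LeafData E0 E2 W N σ₁) {e : ZZ n × ZZ n} (he : e ∈ E2)
    {G : MvPolynomial (Crd n ⊕ ZI n) ℝ}
    (hG : G ∈ germ (hatPt e.2 (mu e.2 e.1)) (Fin.append (fun i => rename Sum.inl (Z.f i)) Z.h')) :
    pullh e.1 G ∈ germ (hx e.1 e.2) (sys L.f (fun _ => sysR Z hc) e.1) := by
  have h1 := adjZ Z he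
  rw [hatPt_eq_hatr h1.1 h1.2, ← germ_sysR Z hc] at hG
  exact pullh_germ_le Z.f L.f (fun _ => sysR Z hc) e.1 e.2 (fun i => pull_f_mem₁ Z L he i) hG

/-- **hat germ `(g, s)` ⟹ hat-leaf germ of `r`** -/
theorem pullh_mem₂ (Z : ZData ℝ n E0 E1 E2 (wh W) N c₀ c₁ c₂ σ₁ σ₂) (hc : c₁ = 2 * (n + 1) - v₁)
    (L : LeafData (swp E0) (swp E2) W N σ₂) {e : ZZ n × ZZ n} (he : e ∈ swp E2)
    {G : MvPolynomial (Crd n ⊕ ZI n) ℝ}
    (hG : G ∈ germ (hatPt e.2 (mu e.2 e.1)) (Fin.append (fun i => rename Sum.inl (Z.f i)) Z.h)) :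
    pullh e.1 G ∈ germ (hx e.1 e.2) (sys L.f (fun _ => sysS Z hc) e.1) := by
  have h1 := adjZ Z (mem_swp.1 he)
  simp only [Prod.fst_swap, Prod.snd_swap] at h1
  rw [hatPt_eq_hatr h1.1.symm (Qf_sub_comm h1.2), ← germ_sysS Z hc] at hG
  exact pullh_germ_le Z.f L.f (fun _ => sysS Z hc) e.1 e.2 (fun i => pull_f_mem₂ Z L he i) hG

theorem inc₁ (Z : ZData ℝ n E0 E1 E2 (wh W) N c₀ c₁ c₂ σ₁ σ₂) (hc : c₂ = 2 * (n + 1) - v₂)
    (L : LeafData E0 E2 W N σ₁) {e : ZZ n × ZZ n} (he : e ∈ E2) :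
    (∀ i, incL e.1 i ∈ germ (hx e.1 e.2) (sys L.f (fun _ => sysR Z hc) e.1)) ∧
      incQ e.1 ∈ germ (hx e.1 e.2) (sys L.f (fun _ => sysR Z hc) e.1) :=
  inc_of_incP fun i => pullh_mem₁ Z hc L he
    (Z.good₂ e he _ (Z.incP_mem i) fun _ _ => eval_incP _ _ i)

theorem inc₂ (Z : ZData ℝ n E0 E1 E2 (wh W) N c₀ c₁ c₂ σ₁ σ₂) (hc : c₁ = 2 * (n + 1) - v₁)
    (L : LeafData (swp E0) (swp E2) W N σ₂) {e : ZZ n × ZZ n} (he : e ∈ swp E2) :
    (∀ i, incL e.1 i ∈ germ (hx e.1 e.2) (sys L.f (fun _ => sysS Z hc) e.1)) ∧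
      incQ e.1 ∈ germ (hx e.1 e.2) (sys L.f (fun _ => sysS Z hc) e.1) :=
  inc_of_incP fun i => pullh_mem₂ Z hc L he
    (Z.good₁ e.swap (mem_swp.1 he) _ (Z.incP_mem i) fun _ _ => eval_incP _ _ i)

theorem swp_subset {A B : Finset (ZZ n × ZZ n)} (h : A ⊆ B) : swp A ⊆ swp B := by
  intro e he
  exact mem_swp.2 (h (mem_swp.1 he))

/-- **the side of `s` (`r` moves)**, over any subset `A` of the good edges -/
noncomputable def side₁ (Z : ZData ℝ n E0 E1 E2 (wh W) N c₀ c₁ c₂ σ₁ σ₂)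
    (hc : c₂ = 2 * (n + 1) - v₂) (L : LeafData E0 E2 W N σ₁) (hA : A ⊆ E2) (hW : 1 ≤ W)
    (hD : 1 ≤ D) (hN : N ≤ D * W) (hσ : σ₁ ≤ n) (hσ1 : 1 ≤ σ₁) (hv : v₂ ≤ 2 * (n + 1)) :
    Side n A W D σ₁ v₂ :=
  mkSide A hW hD hσ hσ1 hv L.f (fun _ => sysR Z hc) L.deg
    (fun _ j => Vw_mono _ hN (Z.h'_mem _))
    (fun e he => (adjZ Z (hA he)).1) (fun e he => (adjZ Z (hA he)).2)
    (fun e he => L.zero e (hA he))
    (fun e he j => by
      have h1 := adjZ Z (hA he)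
      rw [← hatPt_eq_hatr h1.1 h1.2]
      exact Z.h'_zero _ e (Z.mem0 (hA he)))
    (fun e he => L.ind e (hA he))
    (fun e he => by
      have h1 := adjZ Z (hA he)
      rw [← hatPt_eq_hatr h1.1 h1.2]
      exact (Z.h'_ind e (hA he)).comp _ (Fin.cast_injective _))
    (fun e he => (inc₁ Z hc L (hA he)).1) (fun e he => (inc₁ Z hc L (hA he)).2)

/-- **the side of `r` (`s` moves)**, over any subset `A` of the good edges -/
noncomputable def side₂ (Z : ZData ℝ n E0 E1 E2 (wh W) N c₀ c₁ c₂ σ₁ σ₂)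
    (hc : c₁ = 2 * (n + 1) - v₁) (L : LeafData (swp E0) (swp E2) W N σ₂) (hA : A ⊆ E2)
    (hW : 1 ≤ W) (hD : 1 ≤ D) (hN : N ≤ D * W) (hσ : σ₂ ≤ n) (hσ1 : 1 ≤ σ₂)
    (hv : v₁ ≤ 2 * (n + 1)) : Side n (swp A) W D σ₂ v₁ :=
  mkSide (swp A) hW hD hσ hσ1 hv L.f (fun _ => sysS Z hc) L.deg
    (fun _ j => Vw_mono _ hN (Z.h_mem _))
    (fun e he => (adjZ Z (hA (mem_swp.1 he))).1.symm)
    (fun e he => Qf_sub_comm (adjZ Z (hA (mem_swp.1 he))).2)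
    (fun e he => L.zero e (swp_subset hA he))
    (fun e he j => by
      have h1 := adjZ Z (hA (mem_swp.1 he))
      simp only [Prod.fst_swap, Prod.snd_swap] at h1
      rw [← hatPt_eq_hatr h1.1.symm (Qf_sub_comm h1.2)]
      exact Z.h_zero _ e.swap (Z.mem0 (hA (mem_swp.1 he))))
    (fun e he => L.ind e (swp_subset hA he))
    (fun e he => by
      have h1 := adjZ Z (hA (mem_swp.1 he))
      simp only [Prod.fst_swap, Prod.snd_swap] at h1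
      rw [← hatPt_eq_hatr h1.1.symm (Qf_sub_comm h1.2)]
      exact (Z.h_ind e.swap (hA (mem_swp.1 he))).comp _ (Fin.cast_injective _))
    (fun e he => (inc₂ Z hc L (swp_subset hA he)).1)
    (fun e he => (inc₂ Z hc L (swp_subset hA he)).2)

theorem side₁_f (Z : ZData ℝ n E0 E1 E2 (wh W) N c₀ c₁ c₂ σ₁ σ₂)
    (hc : c₂ = 2 * (n + 1) - v₂) (L : LeafData E0 E2 W N σ₁) (hA : A ⊆ E2) (hW : 1 ≤ W)
    (hD : 1 ≤ D) (hN : N ≤ D * W) (hσ : σ₁ ≤ n) (hσ1 : 1 ≤ σ₁) (hv : v₂ ≤ 2 * (n + 1)) :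
    (side₁ Z hc L hA hW hD hN hσ hσ1 hv).f = L.f := rfl

theorem side₁_F (Z : ZData ℝ n E0 E1 E2 (wh W) N c₀ c₁ c₂ σ₁ σ₂)
    (hc : c₂ = 2 * (n + 1) - v₂) (L : LeafData E0 E2 W N σ₁) (hA : A ⊆ E2) (hW : 1 ≤ W)
    (hD : 1 ≤ D) (hN : N ≤ D * W) (hσ : σ₁ ≤ n) (hσ1 : 1 ≤ σ₁) (hv : v₂ ≤ 2 * (n + 1)) :
    (side₁ Z hc L hA hW hD hN hσ hσ1 hv).F = sys L.f (fun _ => sysR Z hc) := rfl

theorem side₂_f (Z : ZData ℝ n E0 E1 E2 (wh W) N c₀ c₁ c₂ σ₁ σ₂)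
    (hc : c₁ = 2 * (n + 1) - v₁) (L : LeafData (swp E0) (swp E2) W N σ₂) (hA : A ⊆ E2)
    (hW : 1 ≤ W) (hD : 1 ≤ D) (hN : N ≤ D * W) (hσ : σ₂ ≤ n) (hσ1 : 1 ≤ σ₂)
    (hv : v₁ ≤ 2 * (n + 1)) :
    (side₂ Z hc L hA hW hD hN hσ hσ1 hv).f = L.f := rfl

theorem side₂_F (Z : ZData ℝ n E0 E1 E2 (wh W) N c₀ c₁ c₂ σ₁ σ₂)
    (hc : c₁ = 2 * (n + 1) - v₁) (L : LeafData (swp E0) (swp E2) W N σ₂) (hA : A ⊆ E2)
    (hW : 1 ≤ W) (hD : 1 ≤ D) (hN : N ≤ D * W) (hσ : σ₂ ≤ n) (hσ1 : 1 ≤ σ₂)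
    (hv : v₁ ≤ 2 * (n + 1)) :
    (side₂ Z hc L hA hW hD hN hσ hσ1 hv).F = sys L.f (fun _ => sysS Z hc) := rfl

/-- `G` in the hat germ `(g, r)` ⟹ `pullh s G` in the prime of the side of `s` -/
theorem side₁_pullh (Z : ZData ℝ n E0 E1 E2 (wh W) N c₀ c₁ c₂ σ₁ σ₂)
    (hc : c₂ = 2 * (n + 1) - v₂) (L : LeafData E0 E2 W N σ₁) (hA : A ⊆ E2) (hW : 1 ≤ W)
    (hD : 1 ≤ D) (hN : N ≤ D * W) (hσ : σ₁ ≤ n) (hσ1 : 1 ≤ σ₁) (hv : v₂ ≤ 2 * (n + 1))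
    {e : ZZ n × ZZ n} (he : e ∈ A) {G : MvPolynomial (Crd n ⊕ ZI n) ℝ}
    (hG : G ∈ germ (hatPt e.2 (mu e.2 e.1)) (Fin.append (fun i => rename Sum.inl (Z.f i)) Z.h')) :
    pullh e.1 G ∈ (side₁ Z hc L hA hW hD hN hσ hσ1 hv).P e := pullh_mem₁ Z hc L (hA he) hG

/-- `G` in the hat germ `(g, s)` ⟹ `pullh r G` in the prime of the side of `r` -/
theorem side₂_pullh (Z : ZData ℝ n E0 E1 E2 (wh W) N c₀ c₁ c₂ σ₁ σ₂)
    (hc : c₁ = 2 * (n + 1) - v₁) (L : LeafData (swp E0) (swp E2) W N σ₂) (hA : A ⊆ E2)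
    (hW : 1 ≤ W) (hD : 1 ≤ D) (hN : N ≤ D * W) (hσ : σ₂ ≤ n) (hσ1 : 1 ≤ σ₂)
    (hv : v₁ ≤ 2 * (n + 1))
    {e : ZZ n × ZZ n} (he : e ∈ swp A) {G : MvPolynomial (Crd n ⊕ ZI n) ℝ}
    (hG : G ∈ germ (hatPt e.2 (mu e.2 e.1)) (Fin.append (fun i => rename Sum.inl (Z.f i)) Z.h)) :
    pullh e.1 G ∈ (side₂ Z hc L hA hW hD hN hσ hσ1 hv).P e :=
  pullh_mem₂ Z hc L (swp_subset hA he) hG

end Z

end Vale.Agent.P054.T2.H94
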