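import Vale.Agent.P054.T2.H428.SecC
import Vale.Agent.P054.T2.H930.TanEdge

set_option autoImplicit false
set_option linter.all false

/-!
# P054 / T2, seam B -> C: construction of `Side` from the leaf systems and the hat systems
-/

namespace Vale.Agent.P054.T2.H94

open MvPolynomial Finset Module
open Vale.Agent.P054.T2.SecC
open Vale.Agent.P054.T2.H686 (mu meet Qf Crd leaf pull totalDegree_linear_le eval_pull)
open Vale.Agent.P054.T2.H580 (Vw mem_Vw Vw_mono C_mem_Vw X_mem_Vw mul_mem_Vw)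
open Vale.Agent.P054.T2.H930 (germ mx grad chain_rule)

section filt

variable {k A B : Type*} [Field k]

/-- finite products -/
theorem prod_pow_mem_Vw (w : B → ℕ) (s : Finset A) (g : A → MvPolynomial B k) (a m : A → ℕ)
    (hg : ∀ x ∈ s, g x ∈ Vw k w (a x)) : ∏ x ∈ s, (g x) ^ (m x) ∈ Vw k w (∑ x ∈ s, m x * a x) := by
  classical
  have hpow : ∀ (q : MvPolynomial B k) (b j : ℕ), q ∈ Vw k w b → q ^ j ∈ Vw k w (j * b) := by
    intro q b j hq
    induction j with
    | zero => rw [pow_zero, zero_mul, ← C_1]; exact C_mem_Vw w 1 0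
    | succ j ih =>
      rw [pow_succ, Nat.succ_mul]
      exact mul_mem_Vw w ih hq
  induction s using Finset.induction_on with
  | empty => rw [Finset.prod_empty, Finset.sum_empty, ← C_1]; exact C_mem_Vw w 1 0
  | insert x s hx ih =>
    rw [Finset.prod_insert hx, Finset.sum_insert hx]
    exact mul_mem_Vw w (hpow _ _ _ (hg x (Finset.mem_insert_self x s)))
      (ih fun y hy => hg y (Finset.mem_insert_of_mem hy))

/-- an algebra map which respects the weights of the variables respects the filtrations -/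
theorem map_mem_Vw (w : A → ℕ) (w' : B → ℕ) (ψ : MvPolynomial A k →ₐ[k] MvPolynomial B k)
    (hψ : ∀ x, ψ (X x) ∈ Vw k w' (w x)) {N : ℕ} {P : MvPolynomial A k} (hP : P ∈ Vw k w N) :
    ψ P ∈ Vw k w' N := by
  rw [mem_Vw] at hP
  rw [P.as_sum, map_sum]
  refine Submodule.sum_mem _ fun m hm => ?_
  have h1 : ψ (monomial m (coeff m P)) =
      C (coeff m P) * ∏ x ∈ m.support, (ψ (X x)) ^ (m x) := by
    rw [monomial_eq, map_mul, Finsupp.prod, map_prod]
    simp only [map_pow]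
    congr 1
    exact ψ.commutes _
  rw [h1]
  have h2 := prod_pow_mem_Vw w' m.support (fun x => ψ (X x)) w m (fun x _ => hψ x)
  have h3 : ∑ x ∈ m.support, m x * w x ≤ N := by
    refine le_trans (le_of_eq ?_) (hP m hm)
    rw [Finsupp.weight_apply, Finsupp.sum]
    exact Finset.sum_congr rfl fun x _ => by rw [smul_eq_mul]
  have h4 := mul_mem_Vw w' (C_mem_Vw w' (coeff m P) 0) (Vw_mono w' h3 h2)
  rwa [zero_add] at h4

theorem totalDegree_mem_Vw_inl {γ ρ : Type*} (W : ℕ) {a : ℕ} {G : MvPolynomial γ k}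
    (hG : G.totalDegree ≤ a) :
    (rename Sum.inl G : MvPolynomial (γ ⊕ ρ) k) ∈ Vw k (Sum.elim (fun _ => 1) (fun _ => W)) a := by
  have h1 : G ∈ Vw k (fun _ : γ => 1) a := by
    rw [H580.Vw_one_eq, mem_restrictTotalDegree]
    exact hG
  refine map_mem_Vw (fun _ => 1) _ (rename Sum.inl) (fun x => ?_) h1
  rw [rename_X]
  exact X_mem_Vw _ _

end filt

variable {n : ℕ}

/-- weights of the hat variables `(g, r)` -/
def wh {n : ℕ} (W : ℕ) : Crd n ⊕ ZI n → ℕ := Sum.elim (fun _ => 1) (fun _ => W)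

/-- the point `(g(s,r), r)` of the hat variety -/
noncomputable def hatr (s r : ZZ n) : Crd n ⊕ ZI n → ℝ := Sum.elim (meet s r) (pt r)

/-- restriction of a polynomial in `(g, r)` to the leaf of `s` -/
noncomputable def pullh (s : ZZ n) :
    MvPolynomial (Crd n ⊕ ZI n) ℝ →ₐ[ℝ] MvPolynomial (HL n) ℝ :=
  aeval (Sum.elim (fun x => rename Sum.inl (pull s (X x))) (fun y => X (Sum.inr y)))

theorem pullh_inl (s : ZZ n) (x : Crd n) :
    pullh s (X (Sum.inl x)) = rename Sum.inl (pull s (X x)) := by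
  rw [pullh, aeval_X, Sum.elim_inl]

theorem pullh_inr (s : ZZ n) (y : ZI n) : pullh s (X (Sum.inr y)) = X (Sum.inr y) := by
  rw [pullh, aeval_X, Sum.elim_inr]

theorem pullh_rename (s : ZZ n) (f : MvPolynomial (Crd n) ℝ) :
    pullh s (rename Sum.inl f) = rename Sum.inl (pull s f) := by
  have : (pullh s).comp (rename Sum.inl) = (rename Sum.inl).comp (pull s) := by
    apply algHom_ext
    intro x
    rw [AlgHom.comp_apply, AlgHom.comp_apply, rename_X, pullh_inl]
  exact congrArg (fun φ : MvPolynomial (Crd n) ℝ →ₐ[ℝ] MvPolynomial (HL n) ℝ => φ f) this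

theorem eval_pullh (s : ZZ n) (u : Fin n → ℝ) (z : ZI n → ℝ)
    (F : MvPolynomial (Crd n ⊕ ZI n) ℝ) :
    eval (Sum.elim u z) (pullh s F) = eval (Sum.elim (leaf s u) z) F := by
  have : ((aeval (Sum.elim u z) : MvPolynomial (HL n) ℝ →ₐ[ℝ] ℝ).comp (pullh s)) =
      (aeval (Sum.elim (leaf s u) z) : MvPolynomial (Crd n ⊕ ZI n) ℝ →ₐ[ℝ] ℝ) := by
    apply algHom_ext
    intro x
    rcases x with x | y
    · rw [AlgHom.comp_apply, pullh_inl, aeval_rename, Sum.elim_comp_inl, aeval_X, Sum.elim_inl]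
      have h1 := eval_pull s u (X x)
      rw [eval_X] at h1
      rw [aeval_eq_eval]
      exact h1
    · rw [AlgHom.comp_apply, pullh_inr, aeval_X, aeval_X]
      rfl
  have h := congrArg (fun φ : MvPolynomial (Crd n ⊕ ZI n) ℝ →ₐ[ℝ] ℝ => φ F) this
  simpa [AlgHom.comp_apply, aeval_eq_eval] using h

theorem eval_hx_pullh (s r : ZZ n) (F : MvPolynomial (Crd n ⊕ ZI n) ℝ) :
    eval (hx s r) (pullh s F) = eval (hatr s r) F := eval_pullh s (mu s r) (pt r) F

theorem pullh_mem_Vw (s : ZZ n) {W j : ℕ} {F : MvPolynomial (Crd n ⊕ ZI n) ℝ}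
    (hF : F ∈ Vw ℝ (wh W) j) : pullh s F ∈ Vw ℝ (wt W) j := by
  refine map_mem_Vw (wh W) (wt W) (pullh s) (fun x => ?_) hF
  rcases x with x | y
  · rw [pullh_inl]
    exact totalDegree_mem_Vw_inl W (totalDegree_linear_le s x)
  · rw [pullh_inr]
    exact X_mem_Vw _ _

theorem pderiv_inr_pullh (s : ZZ n) (z : ZI n) (F : MvPolynomial (Crd n ⊕ ZI n) ℝ) :
    pderiv (Sum.inr z) (pullh s F) = pullh s (pderiv (Sum.inr z) F) := by
  classical
  rw [chain_rule (pderiv (Sum.inr z)) (pullh s) F, Fintype.sum_sum_type]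
  have h1 : ∀ x : Crd n, pderiv (Sum.inr z) (pullh s (X (Sum.inl x))) = 0 := by
    intro x
    rw [pullh_inl]
    refine pderiv_eq_zero_of_notMem_vars ?_
    intro hm
    have := vars_rename Sum.inl (pull s (X x)) hm
    rw [Finset.mem_image] at this
    obtain ⟨a, -, ha⟩ := this
    cases ha
  have h2 : ∀ y : ZI n, pderiv (Sum.inr z) (pullh s (X (Sum.inr y))) =
      if y = z then 1 else 0 := by
    intro y
    rw [pullh_inr, pderiv_X]
    by_cases h : y = z
    · subst h; simp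
    · rw [if_neg h, Pi.single_eq_of_ne]
      intro h'
      exact h (Sum.inr_injective h')
  simp only [h1, h2, mul_zero, Finset.sum_const_zero, zero_add, mul_ite, mul_one]
  rw [Finset.sum_ite_eq' Finset.univ z]
  simp

/-- the system of a side -/
noncomputable def sys {σ v : ℕ} (f : ZZ n → Fin (n - σ) → MvPolynomial (Fin n) ℝ)
    (h : ZZ n → Fin (2 * (n + 1) - v) → MvPolynomial (Crd n ⊕ ZI n) ℝ) (s : ZZ n) :
    Fin ((n - σ) + (2 * (n + 1) - v)) → MvPolynomial (HL n) ℝ :=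
  Fin.append (fun i => rename Sum.inl (f s i)) (fun j => pullh s (h s j))

/-- **[SIDE]** a side from the leaf systems and the hat systems. -/
noncomputable def mkSide (A : Finset (ZZ n × ZZ n)) {W D σ v : ℕ} (hW : 1 ≤ W) (hD : 1 ≤ D)
    (hσ : σ ≤ n) (hσ1 : 1 ≤ σ) (hv : v ≤ 2 * (n + 1))
    (f : ZZ n → Fin (n - σ) → MvPolynomial (Fin n) ℝ)
    (h : ZZ n → Fin (2 * (n + 1) - v) → MvPolynomial (Crd n ⊕ ZI n) ℝ)
    (hfdeg : ∀ s i, (f s i).totalDegree ≤ W)
    (hhdeg : ∀ s j, h s j ∈ Vw ℝ (wh W) (D * W))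
    (hne : ∀ e ∈ A, e.1.1 0 ≠ e.2.1 0) (hQ : ∀ e ∈ A, Qf (e.1 - e.2) = 0)
    (hf0 : ∀ e ∈ A, ∀ i, eval (mu e.1 e.2) (f e.1 i) = 0)
    (hh0 : ∀ e ∈ A, ∀ j, eval (hatr e.1 e.2) (h e.1 j) = 0)
    (hfi : ∀ e ∈ A, LinearIndependent ℝ (fun i => grad (mu e.1 e.2) (f e.1 i)))
    (hhi : ∀ e ∈ A, LinearIndependent ℝ (fun (j : Fin (2 * (n + 1) - v)) (z : ZI n) =>
      eval (hatr e.1 e.2) (pderiv (Sum.inr z) (h e.1 j))))
    (hinc : ∀ e ∈ A, ∀ i, incL e.1 i ∈ germ (hx e.1 e.2) (sys f h e.1))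
    (hincQ : ∀ e ∈ A, incQ e.1 ∈ germ (hx e.1 e.2) (sys f h e.1)) : Side n A W D σ v where
  hW := hW
  hD := hD
  hσ := hσ
  hσ1 := hσ1
  hv := hv
  f := f
  F := sys f h
  hleft s i := by rw [sys, Fin.append_left]
  hfdeg := hfdeg
  hFdeg s j := by
    rw [sys, Fin.append_right]
    exact pullh_mem_Vw s (hhdeg s j)
  hne := hne
  hQ := hQ
  hzero e he i := by
    refine Fin.addCases (fun i => ?_) (fun j => ?_) i
    · rw [sys, Fin.append_left, eval_rename]
      exact hf0 e he i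
    · rw [sys, Fin.append_right, eval_hx_pullh]
      exact hh0 e he j
  hind e he := by
    classical
    rw [Fintype.linearIndependent_iff]
    intro c hc
    rw [Fin.sum_univ_add] at hc
    have hr : ∀ z : ZI n, ∑ j : Fin (2 * (n + 1) - v), c (Fin.natAdd _ j) *
        eval (hatr e.1 e.2) (pderiv (Sum.inr z) (h e.1 j)) = 0 := by
      intro z
      have h1 := congrFun hc (Sum.inr z)
      simp only [Pi.add_apply, Finset.sum_apply, Pi.smul_apply, smul_eq_mul, grad, sys,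
        Fin.append_left, Fin.append_right, Pi.zero_apply, pderiv_inr_pullh, eval_hx_pullh] at h1
      have h2 : ∀ i, pderiv (Sum.inr z) (rename Sum.inl (f e.1 i) : MvPolynomial (HL n) ℝ) = 0 := by
        intro i
        refine pderiv_eq_zero_of_notMem_vars ?_
        intro hm
        have := vars_rename Sum.inl (f e.1 i) hm
        rw [Finset.mem_image] at this
        obtain ⟨a, -, ha⟩ := this
        cases ha
      simp only [h2, map_zero, mul_zero, Finset.sum_const_zero, zero_add] at h1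
      exact h1
    have hb : ∀ j : Fin (2 * (n + 1) - v), c (Fin.natAdd _ j) = 0 := by
      refine Fintype.linearIndependent_iff.1 (hhi e he) (fun j => c (Fin.natAdd _ j)) ?_
      funext z
      rw [Finset.sum_apply]
      simpa only [Pi.smul_apply, smul_eq_mul, Pi.zero_apply] using hr z
    have hl : ∀ i : Fin (n - σ), c (Fin.castAdd _ i) = 0 := by
      refine Fintype.linearIndependent_iff.1 (hfi e he) (fun i => c (Fin.castAdd _ i)) ?_
      funext x
      have h1 := congrFun hc (Sum.inl x)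
      simp only [Pi.add_apply, Finset.sum_apply, Pi.smul_apply, smul_eq_mul, grad, sys,
        Fin.append_left, hb, zero_mul, Finset.sum_const_zero, add_zero, Pi.zero_apply] at h1
      rw [Finset.sum_apply]
      simp only [Pi.smul_apply, smul_eq_mul, grad, Pi.zero_apply]
      rw [← h1]
      refine Finset.sum_congr rfl fun i _ => ?_
      rw [pderiv_rename Sum.inl_injective, eval_rename]
      rfl
    intro i
    refine Fin.addCases (fun i => hl i) (fun j => hb j) i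
  hindf := hfi
  hindr e he := by
    have h1 : (fun (j : Fin (2 * (n + 1) - v)) (z : ZI n) =>
      eval (hx e.1 e.2) (pderiv (Sum.inr z) (sys f h e.1 (Fin.natAdd _ j)))) =
      fun (j : Fin (2 * (n + 1) - v)) (z : ZI n) =>
      eval (hatr e.1 e.2) (pderiv (Sum.inr z) (h e.1 j)) := by
      funext j z
      rw [sys, Fin.append_right, pderiv_inr_pullh, eval_hx_pullh]
    rw [h1]
    exact hhi e he
  hinc := hinc
  hincQ := hincQ

/-! ### The two sides from common hat systems -/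

theorem Qf_neg' (w : ZZ n) : Qf (-w) = Qf w := by
  unfold Qf
  refine Finset.sum_congr rfl fun i _ => ?_
  rw [Prod.fst_neg, Prod.snd_neg, Pi.neg_apply, Pi.neg_apply, neg_mul_neg]

theorem hatr_comm {s r : ZZ n} (h0 : s.1 0 ≠ r.1 0) (hq : Qf (s - r) = 0) :
    hatr r s = Sum.elim (meet s r) (pt s) := by
  unfold hatr
  rw [← H686.meet_comm h0 hq]

/-- the side of `s` (`r` moves) from leaf systems on the leaves of `s` and one common system of
the hat variety `(g, r)` -/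
noncomputable def mkSideS (A : Finset (ZZ n × ZZ n)) {W D σ v : ℕ} (hW : 1 ≤ W) (hD : 1 ≤ D)
    (hσ : σ ≤ n) (hσ1 : 1 ≤ σ) (hv : v ≤ 2 * (n + 1))
    (f : ZZ n → Fin (n - σ) → MvPolynomial (Fin n) ℝ)
    (h : Fin (2 * (n + 1) - v) → MvPolynomial (Crd n ⊕ ZI n) ℝ)
    (hfdeg : ∀ s i, (f s i).totalDegree ≤ W)
    (hhdeg : ∀ j, h j ∈ Vw ℝ (wh W) (D * W))
    (hne : ∀ e ∈ A, e.1.1 0 ≠ e.2.1 0) (hQ : ∀ e ∈ A, Qf (e.1 - e.2) = 0)
    (hf0 : ∀ e ∈ A, ∀ i, eval (mu e.1 e.2) (f e.1 i) = 0)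
    (hh0 : ∀ e ∈ A, ∀ j, eval (Sum.elim (meet e.1 e.2) (pt e.2)) (h j) = 0)
    (hfi : ∀ e ∈ A, LinearIndependent ℝ (fun i => grad (mu e.1 e.2) (f e.1 i)))
    (hhi : ∀ e ∈ A, LinearIndependent ℝ (fun (j : Fin (2 * (n + 1) - v)) (z : ZI n) =>
      eval (Sum.elim (meet e.1 e.2) (pt e.2)) (pderiv (Sum.inr z) (h j))))
    (hinc : ∀ e ∈ A, ∀ i, incL e.1 i ∈ germ (hx e.1 e.2) (sys f (fun _ => h) e.1))
    (hincQ : ∀ e ∈ A, incQ e.1 ∈ germ (hx e.1 e.2) (sys f (fun _ => h) e.1)) :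
    Side n A W D σ v :=
  mkSide A hW hD hσ hσ1 hv f (fun _ => h) hfdeg (fun _ => hhdeg) hne hQ hf0 hh0 hfi hhi hinc hincQ

/-- the side of `r` (`s` moves) from leaf systems on the leaves of `r` and one common system of
the hat variety `(g, s)` -/
noncomputable def mkSideR (A : Finset (ZZ n × ZZ n)) {W D σ v : ℕ} (hW : 1 ≤ W) (hD : 1 ≤ D)
    (hσ : σ ≤ n) (hσ1 : 1 ≤ σ) (hv : v ≤ 2 * (n + 1))
    (f : ZZ n → Fin (n - σ) → MvPolynomial (Fin n) ℝ)
    (h : Fin (2 * (n + 1) - v) → MvPolynomial (Crd n ⊕ ZI n) ℝ)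
    (hfdeg : ∀ s i, (f s i).totalDegree ≤ W)
    (hhdeg : ∀ j, h j ∈ Vw ℝ (wh W) (D * W))
    (hne : ∀ e ∈ A, e.1.1 0 ≠ e.2.1 0) (hQ : ∀ e ∈ A, Qf (e.1 - e.2) = 0)
    (hf0 : ∀ e ∈ A, ∀ i, eval (mu e.1 e.2) (f e.2 i) = 0)
    (hh0 : ∀ e ∈ A, ∀ j, eval (Sum.elim (meet e.1 e.2) (pt e.1)) (h j) = 0)
    (hfi : ∀ e ∈ A, LinearIndependent ℝ (fun i => grad (mu e.1 e.2) (f e.2 i)))
    (hhi : ∀ e ∈ A, LinearIndependent ℝ (fun (j : Fin (2 * (n + 1) - v)) (z : ZI n) =>
      eval (Sum.elim (meet e.1 e.2) (pt e.1)) (pderiv (Sum.inr z) (h j))))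
    (hinc : ∀ e ∈ A, ∀ i, incL e.2 i ∈ germ (hx e.2 e.1) (sys f (fun _ => h) e.2))
    (hincQ : ∀ e ∈ A, incQ e.2 ∈ germ (hx e.2 e.1) (sys f (fun _ => h) e.2)) :
    Side n (swp A) W D σ v :=
  mkSide (swp A) hW hD hσ hσ1 hv f (fun _ => h) hfdeg (fun _ => hhdeg)
    (fun e he => (hne _ (mem_swp.1 he)).symm)
    (fun e he => by
      have h1 := hQ _ (mem_swp.1 he)
      simp only [Prod.fst_swap, Prod.snd_swap] at h1
      have h2 : e.1 - e.2 = -(e.2 - e.1) := (neg_sub _ _).symm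
      rw [h2, Qf_neg']
      exact h1)
    (fun e he i => by
      have h1 := hf0 _ (mem_swp.1 he) i
      simp only [Prod.fst_swap, Prod.snd_swap] at h1
      rwa [H686.mu_comm] at h1)
    (fun e he j => by
      have h1 := hh0 _ (mem_swp.1 he) j
      have h2 := hne _ (mem_swp.1 he)
      have h3 := hQ _ (mem_swp.1 he)
      simp only [Prod.fst_swap, Prod.snd_swap] at h1 h2 h3
      rwa [← hatr_comm h2 h3] at h1)
    (fun e he => by
      have h1 := hfi _ (mem_swp.1 he)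
      simp only [Prod.fst_swap, Prod.snd_swap] at h1
      rwa [H686.mu_comm] at h1)
    (fun e he => by
      have h1 := hhi _ (mem_swp.1 he)
      have h2 := hne _ (mem_swp.1 he)
      have h3 := hQ _ (mem_swp.1 he)
      simp only [Prod.fst_swap, Prod.snd_swap] at h1 h2 h3
      rwa [← hatr_comm h2 h3] at h1)
    (fun e he i => by
      have h1 := hinc _ (mem_swp.1 he) i
      simp only [Prod.fst_swap, Prod.snd_swap] at h1
      exact h1)
    (fun e he => by
      have h1 := hincQ _ (mem_swp.1 he)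
      simp only [Prod.fst_swap, Prod.snd_swap] at h1
      exact h1)

end Vale.Agent.P054.T2.H94
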