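import Vale.Agent.P054.T2.H94.ZSide
import Vale.Agent.P054.T2.H580.UniHat
import Vale.Agent.P054.T2.H307.Fam

set_option autoImplicit false
set_option linter.all false

/-!
# P054 / T2, seam A -> B: leaf systems (`LeafData`) from the uniform set
-/

namespace Vale.Agent.P054.T2.H94

open MvPolynomial Finset Module
open Vale.Agent.P054.T2.SecC
open Vale.Agent.P054.T2.H686 (mu meet Qf Crd leaf pull)
open Vale.Agent.P054.T2.H580 (Vw Par fam_sys fam_GOOD kap kap_le kap_le_of_lt isFilt_total)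
open Vale.Agent.P054.T2.H930 (germ grad)
open Vale.Agent.P054.T2.H307 (IsUnif IsFam JA FI cA cA_mono xL isFam_L1 isFam_L2 van mem_van fib
  mem_fib)

variable {n : ℕ}

/-- smaller sets of good edges, lower level of GOOD, larger degrees -/
def LeafData.mono {A B B' : Finset (ZZ n × ZZ n)} {W W' N N' σ : ℕ} (L : LeafData A B W N σ)
    (hB : B' ⊆ B) (hW : W ≤ W') (hN : N' ≤ N) : LeafData A B' W' N' σ where
  f := L.f
  deg s i := (L.deg s i).trans hW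
  zero e he := L.zero e (hB he)
  ind e he := L.ind e (hB he)
  good e he G hG := L.good e (hB he) G (hG.trans hN)

/-- GOOD relatively to a larger set -/
def LeafData.of_subset {A A' B : Finset (ZZ n × ZZ n)} {W N σ : ℕ} (L : LeafData A B W N σ)
    (hA : A ⊆ A') : LeafData A' B W N σ where
  f := L.f
  deg := L.deg
  zero := L.zero
  ind := L.ind
  good e he G hG h0 := L.good e he G hG fun e' he' => h0 e' (hA he')

/-- **the leaf systems of a family over a uniform set** -/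
theorem leaf_core {β L K₀ N k C₁ q : ℕ} {E' : Finset (ZZ n × ZZ n)} {v : FI × ℕ → ℕ}
    (hP : Par N k β C₁ L K₀ q (JA K₀).card)
    (h : IsUnif (cA n ℝ (β ^ L)) (JA K₀) β E' v) (hE : E'.Nonempty) (hN : n ≤ N)
    {p : ZZ n × ZZ n → ZZ n} {idx : ℕ → FI × ℕ}
    (hF : IsFam (cA n ℝ (β ^ L)) (JA K₀) idx K₀ (fun e : ZZ n × ZZ n => mu e.1 e.2) p
      (restrictTotalDegree (Fin n) ℝ) 1 (β ^ L))
    {k₀ k₁ : ℕ} (hk : k₀ ≤ k₁) (hk₁ : k₁ ≤ K₀)
    (hconst : ∀ k, k₀ ≤ k → k < k₁ → v (idx k) = v (idx k₀))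
    {σ : ℕ} (hσ : v (idx k₀) + σ = n) :
    ∃ f : ZZ n → Fin (n - σ) → MvPolynomial (Fin n) ℝ,
      (∀ s (i : Fin (n - σ)), (f s i).totalDegree ≤
        (β ^ L) ^ kap (k₀ + 1) (fun j => v (idx j)) (i : ℕ)) ∧
      (∀ s (i : Fin (n - σ)), (f s i).totalDegree ≤ (β ^ L) ^ k₀) ∧
      (∀ e ∈ E', ∀ i, eval (mu e.1 e.2) (f (p e) i) = 0) ∧
      (∀ e ∈ E', LinearIndependent ℝ (fun i => grad (mu e.1 e.2) (f (p e) i))) ∧
      ∀ A ⊆ E', ∀ r β' : ℕ, E'.card ≤ r * A.card → r * β' ≤ q → ∀ m, m + N * N + 2 ≤ k₁ →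
        ∃ Y ⊆ A, β' * Y.card ≤ A.card ∧ ∀ e ∈ A, e ∉ Y → ∀ G : MvPolynomial (Fin n) ℝ,
          G.totalDegree ≤ (β ^ L) ^ m → (∀ e' ∈ A, p e' = p e → eval (mu e'.1 e'.2) G = 0) →
            G ∈ germ (mu e.1 e.2) (f (p e)) := by
  classical
  have hb1 := hP.b_gt_one
  have hV := isFilt_total (k := ℝ) (σ := Fin n)
  choose f₀ hf₀ hind₀ using fun s => fam_sys h hE hP.beta_gt_one hV hb1.le hF k₀
    (hk.trans hk₁) s
  have hc : n - σ = v (idx k₀) := by omega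
  have hf₁ : ∀ s, ∀ j : Fin (v (idx k₀)), f₀ s j ∈ van (fun e : ZZ n × ZZ n => mu e.1 e.2)
      (fib p E' s) (restrictTotalDegree (Fin n) ℝ
        ((β ^ L) ^ kap (k₀ + 1) (fun j => v (idx j)) (j : ℕ))) := by
    intro s j
    have := hf₀ s j
    rwa [one_mul] at this
  have hdeg : ∀ s (j : Fin (v (idx k₀))), (f₀ s j).totalDegree ≤
      (β ^ L) ^ kap (k₀ + 1) (fun j => v (idx j)) (j : ℕ) := by
    intro s j
    have := (mem_van.1 (hf₁ s j)).1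
    rwa [mem_restrictTotalDegree] at this
  have hmonoV : ∀ k l : ℕ, k ≤ l → l < k₀ + 1 → v (idx k) ≤ v (idx l) := by
    intro i j hij hj
    exact h.fam_mono hE hP.beta_gt_one hV.mono hb1.le hF hij (by omega)
  have hkap : ∀ j : Fin (v (idx k₀)), kap (k₀ + 1) (fun j => v (idx j)) (j : ℕ) ≤ k₀ :=
    fun j => kap_le_of_lt (k₀ + 1) (fun j => v (idx j)) hmonoV j k₀ j.2
  refine ⟨fun s i => f₀ s (Fin.cast hc i), fun s i => hdeg s (Fin.cast hc i), fun s i =>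
    (hdeg s (Fin.cast hc i)).trans (Nat.pow_le_pow_right (by omega) (hkap _)), ?_, ?_, ?_⟩
  · intro e he i
    exact (mem_van.1 (hf₁ (p e) (Fin.cast hc i))).2 e (mem_fib.2 ⟨he, rfl⟩)
  · intro e he
    exact (hind₀ (p e) e he rfl).comp _ (Fin.cast_injective _)
  · intro A hA r β' hr hrq m hm
    refine ⟨A.filter fun e => ∃ F : MvPolynomial (Fin n) ℝ, F.totalDegree ≤ (β ^ L) ^ m ∧
      (∀ a ∈ A, p a = p e → eval (mu a.1 a.2) F = 0) ∧ F ∉ germ (mu e.1 e.2) (f₀ (p e)),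
      Finset.filter_subset _ _, ?_, ?_⟩
    · refine fam_GOOD hP h hE (fun j _ A B hAB _ e _ => cA_mono (β ^ L) j hAB e)
        (by rw [Fintype.card_fin]; exact hN) (le_refl K₀) hF k₀ k₁ hk hk₁ hconst f₀ hf₁
        (fun e he => hind₀ (p e) e he rfl) hA hr hrq m hm _ (Finset.filter_subset _ _) ?_
      intro e he
      exact (Finset.mem_filter.1 he).2
    · intro e he hY G hG h0
      by_contra hcon
      refine hY (Finset.mem_filter.2 ⟨he, G, hG, h0, ?_⟩)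
      intro hmem
      refine hcon ?_
      have h1 : germ (mu e.1 e.2) (fun i => f₀ (p e) (Fin.cast hc i)) =
          germ (mu e.1 e.2) (f₀ (p e)) := by
        have h2 : ∀ (c c' : ℕ) (hcc : c = c') (F : Fin c' → MvPolynomial (Fin n) ℝ),
            germ (mu e.1 e.2) (fun i => F (Fin.cast hcc i)) = germ (mu e.1 e.2) F := by
          intro c c' hcc F
          subst hcc
          rfl
        exact h2 _ _ hc _
      rw [h1]
      exact hmem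

/-- **[LEAFDATA-1]** leaves of the first end points (family `L1`) -/
theorem exists_leaf₁ {β L K₀ N k C₁ q : ℕ} {E' : Finset (ZZ n × ZZ n)} {v : FI × ℕ → ℕ}
    (hP : Par N k β C₁ L K₀ q (JA K₀).card)
    (h : IsUnif (cA n ℝ (β ^ L)) (JA K₀) β E' v) (hE : E'.Nonempty) (hN : n ≤ N)
    {k₀ k₁ : ℕ} (hk : k₀ ≤ k₁) (hk₁ : k₁ ≤ K₀)
    (hconst : ∀ k, k₀ ≤ k → k < k₁ → v (FI.L1, k) = v (FI.L1, k₀))
    {σ : ℕ} (hσ : v (FI.L1, k₀) + σ = n) :
    ∃ f : ZZ n → Fin (n - σ) → MvPolynomial (Fin n) ℝ,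
      (∀ s (i : Fin (n - σ)), (f s i).totalDegree ≤
        (β ^ L) ^ kap (k₀ + 1) (fun j => v (FI.L1, j)) (i : ℕ)) ∧
      (∀ e ∈ E', ∀ i, eval (mu e.1 e.2) (f e.1 i) = 0) ∧
      (∀ e ∈ E', LinearIndependent ℝ (fun i => grad (mu e.1 e.2) (f e.1 i))) ∧
      ∀ A ⊆ E', ∀ r β' : ℕ, E'.card ≤ r * A.card → r * β' ≤ q → ∀ m, m + N * N + 2 ≤ k₁ →
        ∃ Y ⊆ A, β' * Y.card ≤ A.card ∧ ∀ B ⊆ A \ Y,
          ∃ L₁ : LeafData A B ((β ^ L) ^ k₀) ((β ^ L) ^ m) σ, L₁.f = f := by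
  classical
  obtain ⟨f, h1, h2, h3, h4, h5⟩ := leaf_core hP h hE hN (p := Prod.fst)
    (idx := fun i => (FI.L1, i)) (isFam_L1 (K := ℝ) (n := n) (β ^ L) K₀).isFam hk hk₁ hconst hσ
  refine ⟨f, h1, h3, h4, fun A hA r β' hr hrq m hm => ?_⟩
  obtain ⟨Y, hY, hc, hg⟩ := h5 A hA r β' hr hrq m hm
  refine ⟨Y, hY, hc, fun B hB => ⟨⟨f, h2, fun e he i => ?_, fun e he => ?_, fun e he G hG h0 =>
    ?_⟩, rfl⟩⟩
  · exact h3 e (hA (Finset.mem_sdiff.1 (hB he)).1) i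
  · exact h4 e (hA (Finset.mem_sdiff.1 (hB he)).1)
  · exact hg e (Finset.mem_sdiff.1 (hB he)).1 (Finset.mem_sdiff.1 (hB he)).2 G hG h0

/-- **[LEAFDATA-2]** leaves of the second end points (family `L2`) -/
theorem exists_leaf₂ {β L K₀ N k C₁ q : ℕ} {E' : Finset (ZZ n × ZZ n)} {v : FI × ℕ → ℕ}
    (hP : Par N k β C₁ L K₀ q (JA K₀).card)
    (h : IsUnif (cA n ℝ (β ^ L)) (JA K₀) β E' v) (hE : E'.Nonempty) (hN : n ≤ N)
    {k₀ k₁ : ℕ} (hk : k₀ ≤ k₁) (hk₁ : k₁ ≤ K₀)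
    (hconst : ∀ k, k₀ ≤ k → k < k₁ → v (FI.L2, k) = v (FI.L2, k₀))
    {σ : ℕ} (hσ : v (FI.L2, k₀) + σ = n) :
    ∃ f : ZZ n → Fin (n - σ) → MvPolynomial (Fin n) ℝ,
      (∀ s (i : Fin (n - σ)), (f s i).totalDegree ≤
        (β ^ L) ^ kap (k₀ + 1) (fun j => v (FI.L2, j)) (i : ℕ)) ∧
      (∀ e ∈ E', ∀ i, eval (mu e.1 e.2) (f e.2 i) = 0) ∧
      (∀ e ∈ E', LinearIndependent ℝ (fun i => grad (mu e.1 e.2) (f e.2 i))) ∧
      ∀ A ⊆ E', ∀ r β' : ℕ, E'.card ≤ r * A.card → r * β' ≤ q → ∀ m, m + N * N + 2 ≤ k₁ →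
        ∃ Y ⊆ A, β' * Y.card ≤ A.card ∧ ∀ B ⊆ A \ Y,
          ∃ L₂ : LeafData (swp A) (swp B) ((β ^ L) ^ k₀) ((β ^ L) ^ m) σ, L₂.f = f := by
  classical
  obtain ⟨f, h1, h2, h3, h4, h5⟩ := leaf_core hP h hE hN (p := Prod.snd)
    (idx := fun i => (FI.L2, i)) (isFam_L2 (K := ℝ) (n := n) (β ^ L) K₀).isFam hk hk₁ hconst hσ
  refine ⟨f, h1, h3, h4, fun A hA r β' hr hrq m hm => ?_⟩
  obtain ⟨Y, hY, hc, hg⟩ := h5 A hA r β' hr hrq m hm
  refine ⟨Y, hY, hc, fun B hB => ⟨⟨f, h2, fun e he i => ?_, fun e he => ?_, fun e he G hG h0 =>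
    ?_⟩, rfl⟩⟩
  · have h6 := h3 _ (hA (Finset.mem_sdiff.1 (hB (mem_swp.1 he))).1) i
    simp only [Prod.fst_swap, Prod.snd_swap] at h6
    rwa [H686.mu_comm] at h6
  · have h6 := h4 _ (hA (Finset.mem_sdiff.1 (hB (mem_swp.1 he))).1)
    simp only [Prod.fst_swap, Prod.snd_swap] at h6
    rwa [H686.mu_comm] at h6
  · have h6 := hg _ (Finset.mem_sdiff.1 (hB (mem_swp.1 he))).1
      (Finset.mem_sdiff.1 (hB (mem_swp.1 he))).2 G hG (fun e' he' h7 => by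
        simp only [Prod.snd_swap] at h7
        have h8 := h0 e'.swap (mem_swp.2 (by rw [Prod.swap_swap]; exact he')) h7
        simp only [Prod.fst_swap, Prod.snd_swap] at h8
        rwa [H686.mu_comm] at h8)
    simp only [Prod.fst_swap, Prod.snd_swap] at h6
    rwa [H686.mu_comm] at h6

end Vale.Agent.P054.T2.H94
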