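import Vale.Agent.P054.T2.H94.LeafUni
import Vale.Agent.P054.T2.H794.Leaves

set_option autoImplicit false
set_option linter.all false

/-!
# P054 / T2: the leaf `LeafS n` of section B
-/

namespace Vale.Agent.P054.T2.H94

variable {n : ℕ}

open MvPolynomial Finset Module
open Vale.Agent.P054.T2.SecC
open Vale.Agent.P054.T2.H686 (mu meet Qf Crd)
open Vale.Agent.P054.T2.H930 (germ grad)
open Vale.Agent.P054.T2.H307 (FI NN)
open Vale.Agent.P054.T2.H794 (LeafS ForAData AData Cw)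

/-- **(B-b) [LEAFDATA]** -/
theorem leafS (n : ℕ) : LeafS n := by
  classical
  refine ⟨NN n * NN n + 2, 64, fun C hC q hq L K₀ => ⟨0, fun β _ k C₁ k₀ i₀ i₁ Wg E' v hA => ?_⟩⟩
  have hC1 : 1 ≤ C := by omega
  have hn : n ≤ NN n := by unfold NN; omega
  have hi1 : i₀ + C ≤ i₁ := by
    have h1 := hA.geo
    have h2 : i₀ ≤ C * i₀ := Nat.le_mul_of_pos_left _ hC1
    omega
  have hW : i₀ + (NN n * NN n + 2) ≤ Wg := by
    have h1 := hA.long
    have h2 : i₁ ≤ C * i₁ := Nat.le_mul_of_pos_left _ hC1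
    omega
  have hwin : ∀ (F : FI), Cw v F k₀ (k₀ + Wg) →
      ∀ k, k₀ ≤ k → k < k₀ + Wg → v (F, k) = v (F, k₀) := fun F h k h1 h2 => h k h1 h2.le
  constructor
  · obtain ⟨f, -, h2, h3, h4, h5⟩ := leaf_core hA.par hA.unif hA.ne hn (p := Prod.fst) hA.isL1
      (Nat.le_add_right k₀ Wg) hA.hk (hwin _ hA.winL1) (σ := n - v (FI.L1, k₀))
      (by have := hA.pos1; omega)
    obtain ⟨Y, hY, hc, hg⟩ := h5 E' (Finset.Subset.refl _) 1 64 (by omega) (by omega) (k₀ + i₀)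
      (by omega)
    exact ⟨f, h2, h3, h4, Y, hY, hc, hg⟩
  · obtain ⟨f, -, h2, h3, h4, h5⟩ := leaf_core hA.par hA.unif hA.ne hn (p := Prod.snd) hA.isL2
      (Nat.le_add_right k₀ Wg) hA.hk (hwin _ hA.winL2) (σ := n - v (FI.L2, k₀))
      (by have := hA.pos2; omega)
    obtain ⟨Y, hY, hc, hg⟩ := h5 E' (Finset.Subset.refl _) 1 64 (by omega) (by omega) (k₀ + i₀)
      (by omega)
    exact ⟨f, h2, h3, h4, Y, hY, hc, hg⟩

/-- `LeafData` on the leaves of the first end points from the output of `LeafS` -/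
def mkLeaf₁ {E' B Y : Finset (ZZ n × ZZ n)} {W N σ : ℕ}
    (f : ZZ n → Fin (n - σ) → MvPolynomial (Fin n) ℝ)
    (hdeg : ∀ s i, (f s i).totalDegree ≤ W)
    (h0 : ∀ e ∈ E', ∀ i, eval (mu e.1 e.2) (f e.1 i) = 0)
    (hind : ∀ e ∈ E', LinearIndependent ℝ (fun i => grad (mu e.1 e.2) (f e.1 i)))
    (hg : ∀ e ∈ E', e ∉ Y → ∀ G : MvPolynomial (Fin n) ℝ, G.totalDegree ≤ N →
      (∀ e' ∈ E', e'.1 = e.1 → eval (mu e'.1 e'.2) G = 0) → G ∈ germ (mu e.1 e.2) (f e.1))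
    (hB : ∀ e ∈ B, e ∈ E' ∧ e ∉ Y) : LeafData E' B W N σ where
  f := f
  deg := hdeg
  zero e he := h0 e (hB e he).1
  ind e he := hind e (hB e he).1
  good e he := hg e (hB e he).1 (hB e he).2

/-- `LeafData` on the leaves of the second end points from the output of `LeafS` -/
def mkLeaf₂ {E' B Y : Finset (ZZ n × ZZ n)} {W N σ : ℕ}
    (f : ZZ n → Fin (n - σ) → MvPolynomial (Fin n) ℝ)
    (hdeg : ∀ s i, (f s i).totalDegree ≤ W)
    (h0 : ∀ e ∈ E', ∀ i, eval (mu e.1 e.2) (f e.2 i) = 0)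
    (hind : ∀ e ∈ E', LinearIndependent ℝ (fun i => grad (mu e.1 e.2) (f e.2 i)))
    (hg : ∀ e ∈ E', e ∉ Y → ∀ G : MvPolynomial (Fin n) ℝ, G.totalDegree ≤ N →
      (∀ e' ∈ E', e'.2 = e.2 → eval (mu e'.1 e'.2) G = 0) → G ∈ germ (mu e.1 e.2) (f e.2))
    (hB : ∀ e ∈ B, e ∈ E' ∧ e ∉ Y) : LeafData (swp E') (swp B) W N σ where
  f := f
  deg := hdeg
  zero e he i := by
    have h6 := h0 _ (hB _ (mem_swp.1 he)).1 i
    simp only [Prod.fst_swap, Prod.snd_swap] at h6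
    rwa [H686.mu_comm] at h6
  ind e he := by
    have h6 := hind _ (hB _ (mem_swp.1 he)).1
    simp only [Prod.fst_swap, Prod.snd_swap] at h6
    rwa [H686.mu_comm] at h6
  good e he G hG h0 := by
    have h6 := hg _ (hB _ (mem_swp.1 he)).1 (hB _ (mem_swp.1 he)).2 G hG (fun e' he' h7 => by
        simp only [Prod.snd_swap] at h7
        have h8 := h0 e'.swap (mem_swp.2 (by rw [Prod.swap_swap]; exact he')) h7
        simp only [Prod.fst_swap, Prod.snd_swap] at h8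
        rwa [H686.mu_comm] at h8)
    simp only [Prod.fst_swap, Prod.snd_swap] at h6
    rwa [H686.mu_comm] at h6

end Vale.Agent.P054.T2.H94
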